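import Vale.Agent.P344.H120.GFinal

/-!
# P344: lower bounds in terms of the graph of a circuit only

Coefficients, depth and fan-out are unrestricted throughout.
-/

namespace Vale.Agent.Results.P344.GraphBounds

open Vale.Agent.P344

theorem result :
    -- `L(n)` is the least number of gates of a circuit for `F_n`
    (∀ n : ℕ, 1 ≤ n → IsLeast
      {s | ∃ C : Circuit (Fin n) (Fin n), C.Comp (dftMat n) ∧ Fintype.card C.G = s} (L n)) ∧
    -- `F_n` is a complex Hadamard matrix
    (∀ n : ℕ, dftMat n * (dftMat n).conjTranspose = (n : ℂ) • 1 ∧ ∀ j k, ‖dftMat n j k‖ = 1) ∧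
    -- for every circuit for a complex Hadamard matrix:
    ∀ (n : ℕ) (A : Matrix (Fin n) (Fin n) ℂ), A * A.conjTranspose = (n : ℂ) • 1 →
      (∀ j k, ‖A j k‖ = 1) → ∀ C : Circuit (Fin n) (Fin n), C.Comp A →
        -- the widths at the additions sum to at least `n log n`
        (n * Real.logb 2 n ≤ ∑ g ∈ C.adds, (C.width g : ℝ)) ∧
        -- imbalance
        (∀ ρ : Option (Fin n) ⊕ C.G → ℝ, (∀ c, 1 ≤ ρ c) →
          (∀ g, ∀ c ∈ (C.gate g).args, 0 < C.support c →
            (C.support (Sum.inr g) : ℝ) ≤ ρ c * C.support c) →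
          n * Real.logb 2 n ≤ ∑ c, Real.logb 2 (ρ c)) ∧
        -- potentials
        (∀ φ a : Option (Fin n) ⊕ C.G → ℝ, (∀ c, 0 ≤ a c) →
          (∀ g, ∀ c ∈ (C.gate g).args, φ (Sum.inr g) ≤ φ c + a c) →
          ∑ i, ∑ k, max (φ (C.out k) - φ (Sum.inl (some i))) 0 ≤ n * ∑ c, a c) ∧
        -- circuits with unique paths
        (C.UniquePaths → n * Real.logb 2 n ≤ C.adds.card) ∧
        -- circuits of least addition depth `log n`
        (∀ d : Option (Fin n) ⊕ C.G → ℕ, C.IsAddDepth d → (∀ k, 2 ^ d (C.out k) ≤ n) →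
          n * Real.logb 2 n ≤ C.adds.card) :=
  ⟨fun _ hn => isLeast_comp hn, fun n => ⟨dftMat_mul n, norm_dftMat n⟩,
    fun _ _ hA hflat C hC => ⟨C.width_bound hA hflat hC,
      fun ρ hρ h => C.imbalance_bound hA hflat hC ρ hρ h,
      fun φ a ha h => C.potential_bound hA hflat hC φ a ha h,
      fun hU => hU.bound hA hflat hC,
      fun d hd hout => (hd.uniquePaths (by simpa using hout)
        (fun i k => C.reach_all hA hflat hC i k)).bound hA hflat hC⟩⟩

end Vale.Agent.Results.P344.GraphBounds
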