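import Vale.Agent.P344.H169.Final
import Vale.Agent.P344.H890.Six

/-!
# P344: explicit linear lower bounds for the discrete Fourier transform

Coefficients, depth and fan-out are unrestricted throughout; multiplications by rational constants
are not even counted in the lower bounds.
-/

namespace Vale.Agent.Results.P344.LinearBound

open Filter Vale.Agent.P344

theorem result :
    -- `L(n)` is the least number of gates of a circuit for `F_n`
    (∀ n : ℕ, 1 ≤ n → IsLeast
      {s | ∃ C : Circuit (Fin n) (Fin n), C.Comp (dftMat n) ∧ Fintype.card C.G = s} (L n)) ∧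
    -- every circuit for `F_n`: additions and subtractions, multiplications by irrational numbers
    (∀ n : ℕ, 2 ≤ n → ∀ C : Circuit (Fin n) (Fin n), C.Comp (dftMat n) →
      C.adds.card + C.irr.card ≤ Fintype.card C.G ∧
      3 * n ≤ C.adds.card + 2 * n.primeFactorsList.length + 2 ∧
      3 * n ≤ C.adds.card + n / n.minFac + 3 ∧
      n ≤ C.irr.card + n.divisors.card ∧
      (n.Prime → 2 * n ≤ C.irr.card + (n - 1).divisors.card + 3) ∧
      (∀ E : ℕ, 0 < E → 2 * n * E ≤ C.irr.card * E + 3 * n + 6 ^ (E ^ 2) * E)) ∧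
    (∀ ε : ℝ, 0 < ε → ∀ᶠ n : ℕ in atTop,
      ∀ C : Circuit (Fin n) (Fin n), C.Comp (dftMat n) → (2 - ε) * n ≤ C.irr.card) ∧
    -- the least number of gates
    (∀ ε : ℝ, 0 < ε → ∀ᶠ n : ℕ in atTop, (5 - ε) * n ≤ L n) ∧
    (∀ p : ℕ, p.Prime → 5 * p ≤ L p + (p - 1).divisors.card + 7) ∧
    (∀ n : ℕ, 2 ≤ n →
      4 * n ≤ L n + 2 * n.primeFactorsList.length + n.divisors.card + 2 ∧
      4 * n ≤ L n + n / n.minFac + n.divisors.card + 3 ∧
      ∀ E : ℕ, 0 < E →
        5 * n * E ≤ (L n + 2 * n.primeFactorsList.length + 2 + 6 ^ (E ^ 2)) * E + 3 * n) ∧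
    -- additions for a matrix all of whose square submatrices are nonsingular
    (∀ (n : ℕ) (A : Matrix (Fin n) (Fin n) ℂ),
      (∀ (k : ℕ) (r c : Fin k → Fin n), Function.Injective r → Function.Injective c →
        (A.submatrix r c).det ≠ 0) →
      ∀ C : Circuit (Fin n) (Fin n), C.Comp A →
      ∀ (r : ℕ) (c : ℝ), 0 < c → (n : ℝ) ≤ (1 + c) ^ r →
        3 * (n : ℝ) + n / (1 + c) - (40 * r + 22) ≤ C.adds.card) ∧
    -- for a prime `p`, `F_p` is such a matrix
    (∀ p : ℕ, p.Prime →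
      (∀ (k : ℕ) (r c : Fin k → Fin p), Function.Injective r → Function.Injective c →
        ((dftMat p).submatrix r c).det ≠ 0) ∧
      ∀ (r : ℕ) (c : ℝ), 0 < c → (p : ℝ) ≤ (1 + c) ^ r →
        5 * (p : ℝ) + p / (1 + c) - (40 * r + 25) - (p - 1).divisors.card ≤ L p) ∧
    (∀ ε : ℝ, 0 < ε → ∀ᶠ p : ℕ in atTop, p.Prime →
      (∀ C : Circuit (Fin p) (Fin p), C.Comp (dftMat p) → (4 - ε) * p ≤ C.adds.card) ∧
      (6 - ε) * p ≤ L p) :=
  ⟨fun _ hn => isLeast_comp hn,
    fun _ hn C hC => ⟨H169.adds_add_irr_le C, H518.adds_ge' hn C hC, H518.adds_ge hn C hC,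
      H169.irr_ge_simple (by omega) C hC,
      fun hp => by have := H169.irr_ge_prime hp C hC; omega,
      fun E hE => H169.irr_ge_all (by omega) C hC E hE⟩,
    fun _ hε => H169.irr_asymp hε,
    fun _ hε => H169.L_asymp hε,
    fun _ hp => H169.L_ge_prime hp,
    fun _ hn => ⟨(H169.L_ge_simple hn).1, (H169.L_ge_simple hn).2,
      fun E hE => H169.L_ge_all hn E hE⟩,
    fun _ _ hA C hC r c hc hr =>
      H890.adds_superregular (H890.Superregular.reg hA) C hC r c hc hr,
    fun _ hp => ⟨H890.dftMat_superregular hp, fun r c hc hr => H890.L_prime_explicit hp r c hc hr⟩,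
    fun ε hε => by
      filter_upwards [H890.adds_prime_asymp ε hε, H890.L_prime_asymp ε hε] with p h1 h2 hp
      exact ⟨h1 hp, h2 hp⟩⟩

end Vale.Agent.Results.P344.LinearBound
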