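import Vale.Agent.P344.H120.NMain

/-!
# P344: Q1 and network coding in undirected networks

`L(n)` is the least number of gates of a linear circuit for `F_n`; coefficients and depth are
unrestricted.
-/

namespace Vale.Agent.Results.P344.NetworkCoding

open Filter Vale.Agent.P344 Vale.Agent.P344.NC

theorem result :
    -- unconditionally: a network of `O(L(n))` edges with `n` sessions, which has a linear network
    -- code of rate one over a finite field, while every fractional routing at rate one has
    -- congestion at least of order `n log n / L(n)`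
    (∀ n : ℕ, 2 ≤ n → ∃ (N : Network (Fin n)) (K : Type) (_ : Field K) (_ : Finite K),
      Fintype.card N.E ≤ 8 * L n + 2 * n ∧ N.MaxDegree 3 ∧ Nonempty (LinearCode N K) ∧
      ∀ γ : ℝ, N.Routable γ → n * (Real.logb 2 n - 1) ≤ 4 * γ * Fintype.card N.E) ∧
    -- so Q1 follows from the undirected network coding conjecture up to a constant factor
    ((∃ γ : ℝ, NetworkCodingConjecture γ) →
      ∃ c : ℝ, 0 < c ∧ ∀ᶠ n : ℕ in atTop, c * (n * Real.logb 2 n) ≤ L n) := by
  refine ⟨fun n hn => ?_, fun ⟨_, h⟩ => Q1_of_NC h⟩
  obtain ⟨C, hC, hcard⟩ := (isLeast_comp (by omega : 1 ≤ n)).1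
  obtain ⟨N, K, hK, hK', hE, hrest⟩ := exists_network hn C hC
  exact ⟨N, K, hK, hK', hcard ▸ hE, hrest⟩

end Vale.Agent.Results.P344.NetworkCoding
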