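import Vale.Agent.P344.H992.UpDft
import Vale.Agent.P344.H260.Final
import Vale.Agent.P344.H260.Limit

/-!
# P344: the constant in the upper bound

`L n` is the complexity of the problem (unrestricted coefficients and depth).  `ScaledDFT q K`:
some linear circuit with at most `K` gates computes `diag(b) F_q diag(a)`, for some `a`, `b`
without zero entries.
-/

namespace Vale.Agent.Results.P344.UpperBound

open Filter Vale.Agent.P344 Vale.Agent.P344.H260

theorem log3 : (84 : ℝ) / 53 < Real.logb 2 3 := by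
  rw [Real.lt_logb_iff_rpow_lt (by norm_num) (by norm_num)]
  have h2 : ((2 : ℝ) ^ ((84 : ℝ) / 53)) ^ (53 : ℕ) < 3 ^ (53 : ℕ) := by
    rw [← Real.rpow_natCast, ← Real.rpow_mul (by norm_num)]
    norm_num
  exact lt_of_pow_lt_pow_left₀ 53 (by norm_num) h2

theorem result :
    -- lower limit
    liminf (fun n : ℕ => (L n : ℝ) / (n * Real.logb 2 n)) atTop ≤ 12 / (4 + 3 * Real.logb 2 3) ∧
    12 / (4 + 3 * Real.logb 2 3) < 1.3707 ∧
    -- all lengths
    (∀ δ : ℝ, 0 < δ → ∀ᶠ n : ℕ in atTop,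
      (L n : ℝ) ≤ (48 / (4 + 3 * Real.logb 2 3) + δ) * (n * Real.logb 2 n)) ∧
    (∀ᶠ n : ℕ in atTop, (L n : ℝ) ≤ 5.483 * (n * Real.logb 2 n)) ∧
    -- `n = 2^a 3^b`
    (∀ v : ℝ, 1 < v → v ≤ 2 → ∀ a b : ℕ, (L (2 ^ a * 3 ^ b) : ℝ) ≤
      2 ^ a * 3 ^ b * (3 / 2 * a + 2 * b + 2) + b * ((v + 1) / (v - 1)) ^ b * v ^ a) ∧
    (∀ a b : ℕ, 12 * L (2 ^ a * 24 ^ b) ≤ (18 * a + 79 * b + 12) * (2 ^ a * 24 ^ b)) ∧
    -- powers of two
    (∀ k : ℕ, (L (2 ^ k) : ℝ) ≤ 1.4494 * (k * 2 ^ k) + 31 * 2 ^ k) ∧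
    ScaledDFT 1024 13818 ∧
    -- amplification
    ∀ q K : ℕ, 2 ≤ q → ScaledDFT q K → ∀ j : ℕ,
      L (q ^ j) ≤ j * (q ^ (j - 1) * (K + q - 1)) + q ^ j := by
  have hl := log3
  have hl0 : 0 < 4 + 3 * Real.logb 2 3 := by linarith
  have hall : ∀ δ : ℝ, 0 < δ → ∀ᶠ n : ℕ in atTop,
      (L n : ℝ) ≤ (48 / (4 + 3 * Real.logb 2 3) + δ) * (n * Real.logb 2 n) := by
    intro δ hδ
    obtain ⟨_, _, _, _, hup⟩ := upper hδ
    filter_upwards [hup, eventually_ge_atTop 2] with n hn hn2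
    obtain ⟨s, hs, hb⟩ := hn
    have h2 := logb_pos_of_two_le hn2
    have h3 : (L n : ℝ) ≤ s := by exact_mod_cast Vale.Agent.P344.L_le hs
    have h4 := gam_le_chain
    have h5 : (0 : ℝ) ≤ n * Real.logb 2 n := by positivity
    refine h3.trans (hb.trans ?_)
    refine mul_le_mul_of_nonneg_right ?_ h5
    have h6 : 48 / (4 + 3 * Real.logb 2 3) = 4 * (12 / (4 + 3 * Real.logb 2 3)) := by ring
    rw [h6]
    linarith
  refine ⟨by rw [liminf_eq_gam]; exact gam_le_chain, ?_, hall, ?_,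
    fun v hv hv2 a b => L_two_three hv hv2 a b, H992.L_pow, ?_, scaled_1024,
    fun q K hq h => amplify (by omega) h⟩
  · rw [div_lt_iff₀ hl0]
    linarith
  · filter_upwards [hall 0.0001 (by norm_num), eventually_ge_atTop 2] with n hn hn2
    have h2 := logb_pos_of_two_le hn2
    have h5 : (0 : ℝ) ≤ n * Real.logb 2 n := by positivity
    refine hn.trans (mul_le_mul_of_nonneg_right ?_ h5)
    have h6 : 48 / (4 + 3 * Real.logb 2 3) < 5.4829 := by
      rw [div_lt_iff₀ hl0]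
      linarith
    linarith
  · intro k
    have h := powers (r := 10) (by norm_num) ker_1024 k
    have h1 : (10240 : ℝ) * L (2 ^ k) ≤ 14841 * (k * 2 ^ k) + 10240 * (31 * 2 ^ k) := by
      have h2 : 10240 * L (2 ^ k) ≤ 14841 * (k * 2 ^ k) + 10240 * (31 * 2 ^ k) := h
      exact_mod_cast h2
    have h3 : (0 : ℝ) ≤ k * 2 ^ k := by positivity
    linarith

end Vale.Agent.Results.P344.UpperBound
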